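import Vale.Agent.Lib.P177.Combined

/-!
# Serre positivity over an arbitrary regular local ring for modules underlying algebras

Let `R` be any regular local ring (ramified mixed characteristic allowed) of dimension `d`, and
`M`, `N` finitely generated `R`-modules with `M ⊗ N` of finite length and `dim M + dim N = dim R`.
If `M` is, as an `R`-module, isomorphic to an `R`-algebra that is a regular local ring, or to
`A / (f₁, …, f_c)` with `A` a flat Noetherian local `R`-algebra and `f` an `A`-regular sequence, then
`χ^R(M, N) > 0`.  Here `T i = Tor_i^R(M, N)`.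
-/

open CategoryTheory TensorProduct

namespace Vale.Agent.Results.P177.AlgebraModules

universe u

theorem result (R : Type u) [CommRing R] [IsRegularLocalRing R] (d : ℕ)
    (hd : ringKrullDim R = d)
    (M N : Type u) [AddCommGroup M] [Module R M] [Module.Finite R M]
    [AddCommGroup N] [Module R N] [Module.Finite R N]
    (hlen : Module.length R (M ⊗[R] N) ≠ ⊤)
    (hdim : Module.supportDim R M + Module.supportDim R N = ringKrullDim R)
    (hM : (∃ (B : Type u) (_ : CommRing B) (_ : Algebra R B),
        IsRegularLocalRing B ∧ Nonempty (M ≃ₗ[R] B)) ∨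
      ∃ (A : Type u) (_ : CommRing A) (_ : Algebra R A) (f : List A),
        IsLocalRing A ∧ IsNoetherianRing A ∧ IsLocalHom (algebraMap R A) ∧ Module.Flat R A ∧
          RingTheory.Sequence.IsRegular A f ∧ Nonempty (M ≃ₗ[R] A ⧸ Ideal.ofList f)) :
    let T : ℕ → ModuleCat.{u} R := fun i =>
      ((Tor (ModuleCat.{u} R) i).obj (ModuleCat.of R M)).obj (ModuleCat.of R N)
    (∀ i, Module.length R (T i) ≠ ⊤) ∧ (∀ i, d < i → Subsingleton (T i)) ∧
      0 < ∑ i ∈ Finset.range (d + 1), (-1 : ℤ) ^ i * ((Module.length R (T i)).toNat : ℤ) :=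
  Vale.Agent.P177.combined R d hd M N hlen hdim hM

end Vale.Agent.Results.P177.AlgebraModules
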