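import Vale.Agent.Lib.P177.Final

/-!
# Serre positivity for module-finite regular algebras

Let `R` be an arbitrary regular local ring (ramified mixed characteristic allowed), `B` a
module-finite `R`-algebra which is itself a regular local ring, and `N` an arbitrary finitely
generated `R`-module such that `B ⊗ N` has finite length and `dim B + dim N = dim R`.
Then all `Tor_i^R(B, N)` have finite length, vanish for `i > dim R`, and `χ^R(B, N) > 0`.
-/

open CategoryTheory TensorProduct

namespace Vale.Agent.Results.P177.FiniteRegularAlgebra

universe u

theorem result
    (R : Type u) [CommRing R] [IsRegularLocalRing R] (d : ℕ) (hd : ringKrullDim R = d)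
    (B : Type u) [CommRing B] [IsRegularLocalRing B] [Algebra R B] [Module.Finite R B]
    (N : Type u) [AddCommGroup N] [Module R N] [Module.Finite R N]
    (hlen : Module.length R (B ⊗[R] N) ≠ ⊤)
    (hdim : Module.supportDim R B + Module.supportDim R N = ringKrullDim R) :
    (∀ i, Module.length R
        (Vale.Agent.P177.torModule R i (ModuleCat.of R B) (ModuleCat.of R N)) ≠ ⊤) ∧
      (∀ i, d < i → Subsingleton
        (Vale.Agent.P177.torModule R i (ModuleCat.of R B) (ModuleCat.of R N))) ∧
      0 < Vale.Agent.P177.serreChi R d (ModuleCat.of R B) (ModuleCat.of R N) :=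
  Vale.Agent.P177.positivity_finite_regular R d hd B N hlen hdim

end Vale.Agent.Results.P177.FiniteRegularAlgebra
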