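import Vale.Agent.Lib.P177.Final

/-!
# Serre positivity for module-finite complete intersection algebras

Let `R` be an arbitrary regular local ring (ramified mixed characteristic allowed), `A` a flat
Noetherian local `R`-algebra (local homomorphism), `f₁, …, f_c` an `A`-regular sequence such that
`B = A / (f₁, …, f_c)` is a finitely generated `R`-module, and `N` an arbitrary finitely
generated `R`-module with `B ⊗ N` of finite length and `dim B + dim N = dim R`.
Then `χ^R(B, N) > 0`.
-/

open CategoryTheory TensorProduct

namespace Vale.Agent.Results.P177.FlatCompleteIntersection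

universe u

theorem result
    (R : Type u) [CommRing R] [IsRegularLocalRing R] (d : ℕ) (hd : ringKrullDim R = d)
    (A : Type u) [CommRing A] [IsLocalRing A] [IsNoetherianRing A] [Algebra R A]
    [IsLocalHom (algebraMap R A)] [Module.Flat R A]
    (f : List A) (hf : RingTheory.Sequence.IsRegular A f)
    [Module.Finite R (A ⧸ Ideal.ofList f)]
    (N : Type u) [AddCommGroup N] [Module R N] [Module.Finite R N]
    (hlen : Module.length R ((A ⧸ Ideal.ofList f) ⊗[R] N) ≠ ⊤)
    (hdim : Module.supportDim R (A ⧸ Ideal.ofList f) + Module.supportDim R N =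
      ringKrullDim R) :
    (∀ i, Module.length R (Vale.Agent.P177.torModule R i
        (ModuleCat.of R (A ⧸ Ideal.ofList f)) (ModuleCat.of R N)) ≠ ⊤) ∧
      (∀ i, d < i → Subsingleton (Vale.Agent.P177.torModule R i
        (ModuleCat.of R (A ⧸ Ideal.ofList f)) (ModuleCat.of R N))) ∧
      0 < Vale.Agent.P177.serreChi R d
        (ModuleCat.of R (A ⧸ Ideal.ofList f)) (ModuleCat.of R N) :=
  Vale.Agent.P177.positivity_flat_ci R d hd A f hf N hlen hdim

end Vale.Agent.Results.P177.FlatCompleteIntersection
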